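import Crest.Agent.R269.A.ThB

/-!
# Row 269, block E: the affine Riemann domains `OmS Λ` (statements FROZEN; recipe in Blueprint.lean)
-/

set_option autoImplicit false
set_option linter.unusedSectionVars false
set_option linter.unusedVariables false

noncomputable section

namespace Crest.Agent.R269

open Set Metric Filter Topology MeasureTheory Matrix
open Crest.AlgGeometry.ProjEmb
open scoped InnerProductSpace ContDiff

namespace Geo

variable {N n : ℕ} (X : Geo N n) (Λ : Matrix (Fin (n + 1)) (Fin (N + 1)) ℂ)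

theorem dom_ev (C : X.Chart) (hC : C.Λ = Λ) {y : X.OmS Λ} {w : Cn n} (hw : w ∈ C.B) (h : C.σ w = y.1) :
    ∀ᶠ x : X.OmS Λ in 𝓝 y, zeta Λ x.1 ∈ C.B ∧ C.σ (zeta Λ x.1) = x.1 := by
  have h1 := C.eventually hw one_ne_zero
  rw [one_smul, h, hC] at h1
  have h2 : Tendsto (Subtype.val : X.OmS Λ → _) (𝓝 y) (𝓝[X.Y] y.1) :=
    tendsto_nhdsWithin_iff.2 ⟨continuous_subtype_val.tendsto y, Eventually.of_forall fun x => x.2.1⟩
  filter_upwards [h2.eventually h1] with x hx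
  refine ⟨hx.2.1, ?_⟩
  have h3 := hx.2.2
  rw [x.2.2.1, one_smul] at h3
  exact h3.symm

theorem dom_cont : Continuous fun y : X.OmS Λ => zeta Λ y.1 :=
  continuous_iff_continuousAt.2 fun y => ContinuousAt.comp (f := Subtype.val)
    (analyticAt_zeta Λ (by rw [y.2.2.1]; exact one_ne_zero)).continuousAt continuous_subtype_val.continuousAt

theorem dom_mem (C : X.Chart) (hC : C.Λ = Λ) {w : Cn n} (hw : w ∈ C.B) : C.σ w ∈ X.OmS Λ :=
  ⟨C.mem hw, hC ▸ C.one w hw, hC ▸ C.exists_dl hw⟩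

theorem dom_oph (C : X.Chart) (hC : C.Λ = Λ) (y₀ : X.OmS Λ) :
    ∃ e : OpenPartialHomeomorph (X.OmS Λ) (Cn n), ⇑e = (fun y => zeta Λ y.1) ∧ e.target = C.B ∧
      (∀ w ∈ C.B, (e.symm w).1 = C.σ w) ∧ e.source = {x | zeta Λ x.1 ∈ C.B ∧ C.σ (zeta Λ x.1) = x.1} := by
  classical
  set ι : Cn n → X.OmS Λ := fun w => if h : w ∈ C.B then ⟨C.σ w, X.dom_mem Λ C hC h⟩ else y₀ with hι
  have hv : ∀ w ∈ C.B, (ι w).1 = C.σ w := fun w h => by simp only [hι, dif_pos h]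
  have hz : ∀ w ∈ C.B, zeta Λ (ι w).1 = w := fun w h => by rw [hv w h, ← hC, C.inv w h]
  refine ⟨{ toFun := fun y => zeta Λ y.1
            invFun := ι
            source := {x | zeta Λ x.1 ∈ C.B ∧ C.σ (zeta Λ x.1) = x.1}
            target := C.B
            map_source' := fun x hx => hx.1
            map_target' := fun w h => ?_
            left_inv' := fun x hx => Subtype.ext ((hv _ hx.1).trans hx.2)
            right_inv' := hz
            open_source := isOpen_iff_mem_nhds.2 fun x hx => X.dom_ev Λ C hC hx.1 hx.2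
            open_target := C.isOpen
            continuousOn_toFun := (X.dom_cont Λ).continuousOn
            continuousOn_invFun := IsInducing.subtypeVal.continuousOn_iff.2 (C.an.continuousOn.congr hv) },
    rfl, rfl, hv, rfl⟩
  show zeta Λ (ι w).1 ∈ C.B ∧ C.σ (zeta Λ (ι w).1) = (ι w).1
  rw [hz w h, hv w h]
  exact ⟨h, rfl⟩

theorem dom_chart (y : X.OmS Λ) : ∃ C : X.Chart, C.Λ = Λ ∧ zeta Λ y.1 ∈ C.B ∧ C.σ (zeta Λ y.1) = y.1 := by
  obtain ⟨h1, h2, f, h3⟩ := y.2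
  obtain ⟨C, hC, hB, hσ⟩ := X.exists_chart h1 (by rw [h2]; exact one_ne_zero) h3
  exact ⟨C, hC, hB, by rw [hσ, h2, inv_one, one_smul]⟩

/-- `exists_chart`, `Chart.eventually`, `Chart.exists_dl`. -/
theorem isLocalHomeomorph_zeta : IsLocalHomeomorph fun y : X.OmS Λ => zeta Λ y.1 := by
  intro y
  obtain ⟨C, hC, hB, hσ⟩ := X.dom_chart Λ y
  obtain ⟨e, he, -, -, hs⟩ := X.dom_oph Λ C hC y
  exact ⟨e, by rw [hs]; exact ⟨hB, hσ⟩, he.symm⟩

/-- The Riemann domain `OmS Λ → ℂⁿ`. -/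
abbrev OmD : RDom n := { M := X.OmS Λ, π := fun y => zeta Λ y.1, loc := X.isLocalHomeomorph_zeta Λ }

theorem dom_zeta {e : OpenPartialHomeomorph (X.OmS Λ) (Cn n)} (he : (X.OmD Λ).IsCh e) {w : Cn n} (hw : w ∈ e.target) :
    zeta Λ (e.symm w).1 = w := (he _ (e.map_target hw)).symm.trans (e.right_inv hw)

theorem dom_near {e : OpenPartialHomeomorph (X.OmS Λ) (Cn n)} (he : (X.OmD Λ).IsCh e) {w : Cn n} (hw : w ∈ e.target)
    (C : X.Chart) (hC : C.Λ = Λ) (hB : w ∈ C.B) (hσ : C.σ w = (e.symm w).1) :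
    (fun w => (e.symm w).1) =ᶠ[𝓝 w] C.σ := by
  filter_upwards [(e.continuousAt_symm hw).eventually (X.dom_ev Λ C hC hB hσ), e.open_target.mem_nhds hw] with x h1 h2
  rw [← h1.2, X.dom_zeta Λ he h2]

/-- Every flat chart is a `Chart`. -/
theorem chart_of_isCh {e : OpenPartialHomeomorph (X.OmS Λ) (Cn n)} (he : (X.OmD Λ).IsCh e) :
    ∃ C : X.Chart, C.Λ = Λ ∧ C.B = e.target ∧ ∀ w, C.σ w = (e.symm w).1 := by
  refine ⟨⟨Λ, e.target, fun w => (e.symm w).1, e.open_target, fun w hw => ?_, fun w _ => (e.symm w).2.1,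
    fun w _ => (e.symm w).2.2.1, fun w hw => X.dom_zeta Λ he hw⟩, rfl, rfl, fun _ => rfl⟩
  obtain ⟨C, hC, hB, hσ⟩ := X.dom_chart Λ (e.symm w)
  rw [X.dom_zeta Λ he hw] at hB hσ
  exact (C.an w hB).congr (X.dom_near Λ he hw C hC hB hσ).symm

/-- Every `Chart` with matrix `Λ` is a flat chart. -/
theorem isCh_of_chart (C : X.Chart) (hC : C.Λ = Λ) (hne : C.B.Nonempty) :
    ∃ e : OpenPartialHomeomorph (X.OmS Λ) (Cn n), (X.OmD Λ).IsCh e ∧ e.target = C.B ∧ ∀ w ∈ C.B, (e.symm w).1 = C.σ w := by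
  obtain ⟨w, hw⟩ := hne
  obtain ⟨e, he, ht, hs, -⟩ := X.dom_oph Λ C hC ⟨C.σ w, X.dom_mem Λ C hC hw⟩
  exact ⟨e, fun x _ => congrFun he x, ht, hs⟩

theorem smOn_pot (a b : ℝ) : (X.OmD Λ).SmOn (fun y => X.pot Λ a b y.1) univ := by
  intro e he w hw
  obtain ⟨C, hC, hB, hσ⟩ := X.chart_of_isCh Λ he
  have h := C.contDiffAt_pot (w := w) (hB ▸ hw.1) a b
  simp only [hC, hσ] at h
  exact h.contDiffWithinAt

theorem dom_dv_pos {y : Cn (N + 1)} (hy : y ∈ X.Y) : 0 < ∑ f, ‖X.dv f y‖ ^ 2 := by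
  obtain ⟨f, hf⟩ := X.exists_dv_ne hy
  exact Finset.sum_pos' (fun _ _ => sq_nonneg _) ⟨f, Finset.mem_univ _, pow_pos (norm_pos_iff.2 hf) 2⟩

theorem dom_dl_pos {y : Cn (N + 1)} (hy : y ∈ X.OmS Λ) : 0 < ∑ f, ‖X.dl f Λ y‖ ^ 2 := by
  obtain ⟨f, hf⟩ := hy.2.2
  exact Finset.sum_pos' (fun _ _ => sq_nonneg _) ⟨f, Finset.mem_univ _, pow_pos (norm_pos_iff.2 hf) 2⟩

theorem dom_cont_dv : Continuous fun y => ∑ f, ‖X.dv f y‖ ^ 2 :=
  continuous_finsetSum _ fun f _ =>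
    (continuous_iff_continuousAt.2 fun y => (X.analyticAt_dv f y).continuousAt).norm.pow 2

theorem dom_cont_dl : Continuous fun y => ∑ f, ‖X.dl f Λ y‖ ^ 2 :=
  continuous_finsetSum _ fun f _ =>
    (continuous_iff_continuousAt.2 fun y => (X.analyticAt_dl f Λ y).continuousAt).norm.pow 2

theorem continuous_pot (a b : ℝ) : Continuous fun y : X.OmS Λ => X.pot Λ a b y.1 := by
  refine (continuous_const.mul ((((X.dom_cont_dv).comp continuous_subtype_val).div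
    ((X.dom_cont_dl Λ).comp continuous_subtype_val) fun y => (X.dom_dl_pos Λ y.2).ne').log fun y => ?_)).add
    (continuous_const.mul ((continuous_subtype_val.norm.pow 2).log fun y => ?_))
  · exact (div_pos (X.dom_dv_pos y.2.1) (X.dom_dl_pos Λ y.2)).ne'
  · exact pow_ne_zero _ (norm_ne_zero_iff.2 y.2.1.1)

theorem dom_cont_ell : Continuous (ell Λ : Cn (N + 1) → ℂ) := by
  unfold ell
  fun_prop

theorem dom_ell_le : ∃ A : ℝ, 0 < A ∧ ∀ y : Cn (N + 1), ‖ell Λ y‖ ≤ A * ‖y‖ := by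
  refine ⟨∑ i, ‖Λ 0 i‖ + 1, by positivity, fun y => ?_⟩
  simp only [ell, mulVec, dotProduct]
  refine (norm_sum_le _ _).trans ?_
  rw [add_mul, Finset.sum_mul]
  refine le_add_of_le_of_nonneg (Finset.sum_le_sum fun i _ => ?_) (by positivity)
  rw [norm_mul]
  exact mul_le_mul_of_nonneg_left (PiLp.norm_apply_le y i) (norm_nonneg _)

/-- Both terms of `pot Λ 1 1` are bounded below (`norm_dl_le`, `ell = 1`). -/
theorem pot_lower : ∃ C : ℝ, ∀ y ∈ X.OmS Λ, -C ≤ X.pot Λ 1 0 y ∧ -C ≤ X.pot Λ 0 1 y := by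
  obtain ⟨A, hA, hA'⟩ := dom_ell_le Λ
  obtain ⟨B, hB, hB'⟩ := X.norm_dl_le Λ
  refine ⟨max (Real.log (B ^ 2)) (Real.log (A ^ 2)), fun y hy => ⟨?_, ?_⟩⟩
  · refine (neg_le_neg (le_max_left _ _)).trans ?_
    simp only [pot, one_mul, zero_mul, add_zero]
    rw [← Real.log_inv]
    refine Real.log_le_log (by positivity) ?_
    rw [le_div_iff₀ (X.dom_dl_pos Λ hy), inv_mul_le_iff₀ (by positivity), Finset.mul_sum]
    refine Finset.sum_le_sum fun f _ => ?_
    rw [← mul_pow]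
    exact pow_le_pow_left₀ (norm_nonneg _) (hB' f y hy.1) 2
  · refine (neg_le_neg (le_max_right _ _)).trans ?_
    simp only [pot, one_mul, zero_mul, zero_add]
    rw [← Real.log_inv]
    refine Real.log_le_log (by positivity) ?_
    rw [inv_le_iff_one_le_mul₀' (by positivity), ← mul_pow]
    have h := hA' y
    rw [hy.2.1, norm_one] at h
    exact one_le_pow₀ h

theorem dom_levi (C : X.Chart) {w : Cn n} (hw : w ∈ C.B) (a b : ℝ) (v : Cn n) :
    levi (fun x => X.pot C.Λ a b (C.σ x)) w v =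
      a * X.thB (C.σ w) (fderiv ℂ C.σ w v) + b * om (C.σ w) (fderiv ℂ C.σ w v) := by
  have h := C.levi_pot hw a b (q := fun _ => 0) contDiffAt_const v
  simpa only [add_zero, eta, levi_const] using h

theorem exh_pot : (X.OmD Λ).Exh fun y => X.pot Λ 1 1 y.1 := by
  refine ⟨X.smOn_pot Λ 1 1, fun e he => ?_, fun t => ?_⟩
  · obtain ⟨C, hC, hB, hσ⟩ := X.chart_of_isCh Λ he
    have h : ((fun y : X.OmS Λ => X.pot Λ 1 1 y.1) ∘ e.symm) = fun x => X.pot C.Λ 1 1 (C.σ x) := by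
      funext x; simp only [hC, hσ, Function.comp]
    change VB ((fun y : X.OmS Λ => X.pot Λ 1 1 y.1) ∘ e.symm) _ _
    rw [h]
    refine vb_of_classical fun w hw => ⟨(C.contDiffAt_pot (hB ▸ hw.1) 1 1).of_le (by norm_cast), fun v => ?_⟩
    refine Finset.sum_nonneg fun j _ => ?_
    rw [X.dom_levi C (hB ▸ hw.1), one_mul, one_mul]
    exact add_nonneg (X.thB_nonneg _ _) (om_nonneg _ _)
  · obtain ⟨C, hC⟩ := X.pot_lower Λ
    set K : Set (Cn (N + 1)) := closedBall 0 (√(Real.exp (t + C))) ∩ (insert 0 X.Y ∩ ({y | ell Λ y = 1} ∩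
      {y | ∑ f, ‖X.dv f y‖ ^ 2 ≤ Real.exp (t + C) * ∑ f, ‖X.dl f Λ y‖ ^ 2})) with hK
    have hKc : IsCompact K := (isCompact_closedBall _ _).inter_right (X.isClosed_Y0.inter
      ((isClosed_eq (dom_cont_ell Λ) continuous_const).inter
        (isClosed_le X.dom_cont_dv (continuous_const.mul (X.dom_cont_dl Λ)))))
    have hKs : K ⊆ X.OmS Λ := by
      rintro y ⟨-, h1, h2, h3⟩
      have hy : y ∈ X.Y := h1.resolve_left fun h => by
        rw [mem_ofPred_eq, h] at h2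
        simp [ell] at h2
      refine ⟨hy, h2, ?_⟩
      by_contra h
      push Not at h
      have h4 := X.dom_dv_pos hy
      simp only [mem_ofPred_eq, h, norm_zero, zero_pow two_ne_zero, Finset.sum_const_zero, mul_zero] at h3
      linarith
    refine (IsInducing.subtypeVal.isCompact_preimage' hKc (by rwa [Subtype.range_coe])).of_isClosed_subset
      (isClosed_le (X.continuous_pot Λ 1 1) continuous_const) fun y hy => ?_
    obtain ⟨h1, h2⟩ := hC y.1 y.2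
    have h3 : X.pot Λ 1 1 y.1 ≤ t := hy
    simp only [pot, one_mul, zero_mul, add_zero, zero_add] at h1 h2 h3
    refine ⟨mem_closedBall_zero_iff.2 (Real.le_sqrt_of_sq_le ?_), Or.inr y.2.1, y.2.2.1, ?_⟩
    · rw [← Real.log_le_iff_le_exp (pow_pos (norm_pos_iff.2 y.2.1.1) 2)]
      linarith
    · rw [mem_ofPred_eq, ← div_le_iff₀ (X.dom_dl_pos Λ y.2),
        ← Real.log_le_iff_le_exp (div_pos (X.dom_dv_pos y.2.1) (X.dom_dl_pos Λ y.2))]
      linarith

theorem VSub.wt {X : Geo N n} {a b c : ℝ} {u} (h : X.VSub a b u c) (Λ) : (X.OmD Λ).Wt fun y => X.pot Λ a b y.1 + u y.1 := by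
  have hc := X.continuous_pot Λ a b
  refine ⟨hc.upperSemicontinuous.add fun y c' hc' => ?_, fun y => ?_⟩
  · exact (tendsto_nhdsWithin_iff.2 ⟨continuous_subtype_val.tendsto y, Eventually.of_forall fun x => x.2.1⟩).eventually
      (h.usc y.1 y.2.1 c' hc')
  · obtain ⟨B, hB⟩ := h.bdd
    refine ⟨B - (X.pot Λ a b y.1 - 1), ?_⟩
    filter_upwards [hc.continuousAt.eventually (lt_mem_nhds (sub_one_lt (X.pot Λ a b y.1)))] with x hx
    have := (abs_le.1 (hB x.1 x.2.1)).1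
    linarith

theorem dom_test {X : Geo N n} {a b c : ℝ} {u} (h : X.VSub a b u c) (C : X.Chart) {w : Cn n} (hw : w ∈ C.B)
    {q : Cn n → ℝ} (hq : ContDiffAt ℝ 2 q w) (hm : IsLocalMax (fun x => X.pot C.Λ a b (C.σ x) + u (C.σ x) - q x) w)
    (v : Fin n → Cn n) : 0 ≤ ∑ j, levi q w (v j) ∧
      c * (gram (C.U w) / ‖C.σ w‖ ^ 2 * ‖(colM v).det‖ ^ 2) ≤ (‖C.σ w‖ ^ 2 * (∑ j, levi q w (v j)) / n) ^ n := by
  have hz := analyticAt_zeta C.Λ (y := C.σ w) (by rw [C.one w hw]; exact one_ne_zero)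
  have hq' : ContDiffAt ℝ 2 (fun x => q (zeta C.Λ x) - X.pot C.Λ a b (C.σ (zeta C.Λ x))) (C.σ w) := by
    have h1 : ContDiffAt ℝ 2 (fun x => q x - X.pot C.Λ a b (C.σ x)) (zeta C.Λ (C.σ w)) := by
      rw [C.inv w hw]
      exact hq.sub ((C.contDiffAt_pot hw a b).of_le (by norm_cast))
    exact h1.comp (C.σ w) (hz.contDiffAt.restrict_scalars ℝ)
  have hG := h.test _ (C.mem hw) _ hq' (fun x t ht => by rw [zeta_smul _ _ ht]) (by
    have h1 := C.eventually hw one_ne_zero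
    rw [one_smul] at h1
    have h2 : Tendsto (zeta C.Λ) (𝓝[X.Y] (C.σ w)) (𝓝 w) := by
      have := hz.continuousAt.tendsto
      rw [C.inv _ hw] at this
      exact this.mono_left nhdsWithin_le_nhds
    filter_upwards [h1, h2.eventually hm] with x h3 h4
    have h5 : u x = u (C.σ (zeta C.Λ x)) := by
      conv_lhs => rw [h3.2.2]
      exact h.hom _ (C.mem h3.2.1) _ h3.1
    rw [C.inv w hw, h5]
    linarith) (fun j => fderiv ℂ C.σ w (v j)) fun j => X.fderiv_mem_T (C.an w hw).differentiableAt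
      ((C.isOpen.eventually_mem hw).mono fun _ hx => C.mem hx) _
  have he : ∀ j, X.eta a b (fun x => q (zeta C.Λ x) - X.pot C.Λ a b (C.σ (zeta C.Λ x))) (C.σ w)
      (fderiv ℂ C.σ w (v j)) = levi q w (v j) := fun j => by
    rw [← C.levi_pot hw a b hq']
    refine levi_congr ?_ _
    filter_upwards [C.isOpen.eventually_mem hw] with x hx
    rw [C.inv x hx]; ring
  simp only [he, C.gv_eq hw] at hG
  exact hG

/-- For a test function `q₀` in a chart use `q y = q₁ ((ell Λ y)⁻¹ • y)`,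
`q₁ = q₀ ∘ zeta Λ - a (log ‖dv f‖² - log ‖dl f Λ‖²) - b log ‖·‖²` (`pot_eq`, `Chart.eventually`, `Chart.levi_pot`). -/
theorem VSub.vbm {X : Geo N n} {a b c : ℝ} {u} (h : X.VSub a b u c) (Λ) :
    (X.OmD Λ).VBM (fun y => X.pot Λ a b y.1 + u y.1) univ fun _ => 0 := by
  intro e he w hw q hq hm v
  obtain ⟨C, hC, hB, hσ⟩ := X.chart_of_isCh Λ he
  refine (dom_test h C (hB ▸ hw.1) hq ?_ v).1
  simpa only [hC, hσ, Function.comp] using hm

theorem dom_gram (C : X.Chart) {w : Cn n} (hw : w ∈ C.B) :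
    Real.exp (X.pot C.Λ 1 0 (C.σ w)) = (n + 1).factorial * gram (C.U w) := by
  obtain ⟨μ, -, hμ⟩ := X.exists_mu (C.mem hw) (C.isFrame hw)
  have hm := X.dom_mem C.Λ C rfl hw
  have h1 : ∀ f, X.dv f (C.σ w) = X.dl f C.Λ (C.σ w) • plU (C.U w) := fun f => by
    ext β
    simp only [dv, plU, hμ, C.det_mul_U hw, mul_one, PiLp.smul_apply, smul_eq_mul]
  simp only [pot, one_mul, zero_mul, add_zero]
  rw [Real.exp_log (div_pos (X.dom_dv_pos hm.1) (X.dom_dl_pos _ hm)), div_eq_iff (X.dom_dl_pos _ hm).ne',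
    ← norm_plU_sq, Finset.mul_sum]
  refine Finset.sum_congr rfl fun f _ => ?_
  rw [h1, norm_smul]; ring

/-- The determinant version, with a constant independent of `a, b, u, c` (`Chart.gv_eq`; the function
`gram U / ‖σ‖ ^ (2 n + 2)` is well defined, continuous and positive on `OmS Λ`). -/
theorem exists_vbm_det {K : Set (X.OmS Λ)} (hK : IsCompact K) : ∃ κ : ℝ, 0 < κ ∧ ∀ (a b c : ℝ) (u), 0 ≤ c → X.VSub a b u c →
    (X.OmD Λ).VBM (fun y => X.pot Λ a b y.1 + u y.1) K fun v => n * (c * κ * ‖(colM v).det‖ ^ 2) ^ (1 / (n : ℝ)) := by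
  obtain ⟨B, hB⟩ := X.pot_lower Λ
  obtain ⟨R, hR, hR'⟩ := (hK.image continuous_subtype_val).isBounded.exists_pos_norm_le
  refine ⟨Real.exp (-B) / ((n + 1).factorial * (R ^ 2) ^ (n + 1)), by positivity,
    fun a b c u hc h e he w hw q hq hm v => ?_⟩
  obtain ⟨C, hC, hT, hσ⟩ := X.chart_of_isCh Λ he
  have hw' : w ∈ C.B := hT ▸ hw.1
  obtain ⟨h1, h2⟩ := dom_test h C hw' hq (by simpa only [hC, hσ, Function.comp] using hm) v
  have hn : (0 : ℝ) < n := Nat.cast_pos.2 X.npos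
  have h3 : ‖C.σ w‖ ≤ R := hR' _ ⟨_, hw.2, (hσ w).symm⟩
  have h4 : 0 < ‖C.σ w‖ := norm_pos_iff.2 (C.mem hw').1
  have h5 : Real.exp (-B) ≤ (n + 1).factorial * gram (C.U w) := by
    rw [← X.dom_gram C hw']
    exact Real.exp_le_exp.2 (hC ▸ (hB _ (X.dom_mem Λ C hC hw')).1)
  set S := ∑ j, levi q w (v j)
  have h6 : c * (Real.exp (-B) / ((n + 1).factorial * (R ^ 2) ^ (n + 1))) * ‖(colM v).det‖ ^ 2 ≤ (S / n) ^ n := by
    rw [mul_div_assoc, mul_pow, ← div_le_iff₀' (by positivity)] at h2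
    refine le_trans ?_ h2
    rw [mul_assoc, mul_div_assoc, mul_div_right_comm]
    refine mul_le_mul_of_nonneg_left (mul_le_mul_of_nonneg_right ?_ (by positivity)) hc
    rw [div_div, ← pow_succ', ← div_div]
    refine div_le_div₀ ?_ ?_ (by positivity) (by gcongr)
    · exact (gram_pos (C.isFrame hw').2).le
    · rwa [div_le_iff₀' (by positivity)]
  rw [← le_div_iff₀' hn]
  refine (Real.rpow_le_rpow (by positivity) h6 (by positivity)).trans (le_of_eq ?_)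
  rw [one_div, Real.pow_rpow_inv_natCast (by positivity) (Nat.pos_iff_ne_zero.1 X.npos)]

/-- `log ‖y‖²` is strictly psh on compact sets (`Chart.om_bounds`, finite cover). -/
theorem exists_lam {K : Set (X.OmS Λ)} (hK : IsCompact K) : ∃ lam : ℝ, 0 < lam ∧
    ∀ e : OpenPartialHomeomorph (X.OmS Λ) (Cn n), (X.OmD Λ).IsCh e → ∀ x ∈ K ∩ e.source, ∀ v,
      lam * ‖v‖ ^ 2 ≤ levi (fun w => X.pot Λ 0 1 (e.symm w).1) (e x) v := by
  refine hK.induction_on (p := fun K => ∃ lam : ℝ, 0 < lam ∧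
    ∀ e : OpenPartialHomeomorph (X.OmS Λ) (Cn n), (X.OmD Λ).IsCh e → ∀ x ∈ K ∩ e.source, ∀ v,
      lam * ‖v‖ ^ 2 ≤ levi (fun w => X.pot Λ 0 1 (e.symm w).1) (e x) v) ⟨1, one_pos, fun e _ x hx => hx.1.elim⟩
    ?_ ?_ fun y _ => ?_
  · rintro s t hst ⟨l, hl, h⟩
    exact ⟨l, hl, fun e he x hx => h e he x ⟨hst hx.1, hx.2⟩⟩
  · rintro s t ⟨l, hl, h⟩ ⟨l', hl', h'⟩
    refine ⟨min l l', lt_min hl hl', fun e he x hx v => ?_⟩
    rcases hx.1 with h1 | h1
    · exact (mul_le_mul_of_nonneg_right (min_le_left _ _) (sq_nonneg _)).trans (h e he x ⟨h1, hx.2⟩ v)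
    · exact (mul_le_mul_of_nonneg_right (min_le_right _ _) (sq_nonneg _)).trans (h' e he x ⟨h1, hx.2⟩ v)
  · obtain ⟨C, hC, hB, hσ⟩ := X.dom_chart Λ y
    obtain ⟨r, hr, hb⟩ := Metric.nhds_basis_closedBall.mem_iff.1 (C.isOpen.mem_nhds hB)
    obtain ⟨c₁, c₂, h₁, -, h⟩ := C.om_bounds (isCompact_closedBall _ r) hb
    refine ⟨_, mem_nhdsWithin_of_mem_nhds ((X.dom_ev Λ C hC hB hσ).and
      ((X.dom_cont Λ).continuousAt.eventually (closedBall_mem_nhds _ hr))), c₁, h₁, fun e he x hx v => ?_⟩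
    obtain ⟨⟨⟨h2, h3⟩, h4⟩, h5⟩ := hx
    have h6 : e x = zeta Λ x.1 := he x h5
    rw [← h6] at h2 h3 h4
    have h7 := X.dom_near Λ he (e.map_source h5) C hC h2 (by rw [e.left_inv h5, h3])
    rw [levi_congr (g := fun w => X.pot C.Λ 0 1 (C.σ w)) (h7.mono fun w hw => by simp only [hC, ← hw]),
      X.dom_levi C h2, zero_mul, one_mul, zero_add]
    exact (h _ h4 v).1

end Geo

end Crest.Agent.R269
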