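import Crest.Agent.R269.Defs
import Crest.Agent.R266.SCV
import Crest.Agent.R271.T1.OV

/-!
# Row 269, block E: `L²` removable singularities across a hypersurface (helper31)

`H w` is the circle average of `s ↦ h (w + s e)`; for almost every `w` this slice is square integrable (Fubini and translation
invariance), so its isolated singularities are removable and `H w = h w`.
-/

set_option autoImplicit false
set_option linter.unusedSectionVars false
set_option linter.unusedVariables false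

noncomputable section

namespace Crest.Agent.R269

open Set Metric Filter Topology MeasureTheory
open scoped ENNReal

theorem rem_one {u τ : ℂ → ℂ} {r : ℝ} (hr : 0 < r) (hτ : AnalyticOnNhd ℂ τ (closedBall 0 r))
    (hs : ∀ s ∈ sphere (0 : ℂ) r, τ s ≠ 0) (h0 : τ 0 ≠ 0)
    (hu : ∀ s ∈ closedBall (0 : ℂ) r, τ s ≠ 0 → DifferentiableAt ℂ u s)
    (hi : ∫⁻ s in ball 0 r ∩ {s | τ s ≠ 0}, ENNReal.ofReal (‖u s‖ ^ 2) ≠ ⊤) :
    Real.circleAverage u 0 r = u 0 := by
  classical
  set G : ℂ → ℂ := fun ζ => if τ ζ = 0 then limUnder (𝓝[≠] ζ) u else u ζ with hG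
  have hGu : ∀ ζ, τ ζ ≠ 0 → G ζ = u ζ := fun ζ h => if_neg h
  have hd : ∀ s ∈ closedBall (0 : ℂ) r, DifferentiableAt ℂ G s := by
    intro s hsb
    by_cases h : τ s = 0
    · have hsb' : s ∈ ball (0 : ℂ) r := by
        rcases (mem_closedBall.1 hsb).lt_or_eq with h' | h'
        · exact h'
        · exact absurd h (hs s h')
      have h1 : ∀ᶠ ζ in 𝓝[≠] s, τ ζ ≠ 0 := by
        refine (hτ s hsb).eventually_eq_zero_or_eventually_ne_zero.resolve_left fun h1 => h0 ?_
        exact hτ.eqOn_zero_of_preconnected_of_eventuallyEq_zero (convex_closedBall 0 r).isPreconnected hsb h1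
          (mem_closedBall_self hr.le)
      obtain ⟨ρ, hρ, hb⟩ := Metric.eventually_nhds_iff_ball.1
        ((eventually_nhdsWithin_iff.1 h1).and (isOpen_ball.eventually_mem hsb'))
      have hd : DifferentiableOn ℂ u (ball s ρ \ {s}) := fun ζ hζ =>
        (hu ζ (ball_subset_closedBall (hb ζ hζ.1).2) ((hb ζ hζ.1).1 hζ.2)).differentiableWithinAt
      have hl := R271.T1.ov_little hρ hd (ne_top_of_le_ne_top hi (by
        rw [← setLIntegral_congr (sdiff_ae_eq_self.2 (measure_mono_null inter_subset_right (measure_singleton s)))]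
        exact lintegral_mono_set fun ζ hζ => ⟨(hb ζ hζ.1).2, (hb ζ hζ.1).1 hζ.2⟩))
      have h2 := Complex.differentiableOn_update_limUnder_of_isLittleO (ball_mem_nhds s hρ) hd hl
      refine (h2.differentiableAt (ball_mem_nhds s hρ)).congr_of_eventuallyEq ?_
      filter_upwards [ball_mem_nhds s hρ] with ζ hζ
      rcases eq_or_ne ζ s with rfl | hne
      · rw [Function.update_self]; exact if_pos h
      · rw [Function.update_of_ne hne]; exact hGu ζ ((hb ζ hζ).1 hne)
    · refine (hu s hsb h).congr_of_eventuallyEq ?_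
      filter_upwards [(hτ s hsb).continuousAt.eventually_ne h] with ζ hζ
      exact hGu ζ hζ
  have h3 : DiffContOnCl ℂ G (ball 0 |r|) := by
    rw [abs_of_pos hr]
    refine DifferentiableOn.diffContOnCl ?_
    rw [closure_ball 0 hr.ne']
    exact fun s hsb => (hd s hsb).differentiableWithinAt
  rw [← hGu 0 h0, ← h3.circleAverage]
  refine Real.circleAverage_congr_sphere fun s hsb => ?_
  rw [abs_of_pos hr] at hsb
  exact (hGu s (hs s hsb)).symm

theorem rem_slice {n : ℕ} {Φ : Cn n → ℝ≥0∞} (hΦ : Measurable Φ) (hi : ∫⁻ w, Φ w ≠ ⊤) (e : Cn n) (r : ℝ) :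
    ∀ᵐ w : Cn n, ∫⁻ s in ball (0 : ℂ) r, Φ (w + s • e) < ⊤ := by
  have hm : Measurable (Function.uncurry fun (w : Cn n) (s : ℂ) => Φ (w + s • e)) :=
    hΦ.comp (Continuous.measurable (by fun_prop))
  refine ae_lt_top hm.lintegral_prod_right ?_
  rw [lintegral_lintegral_swap hm.aemeasurable]
  simp only [lintegral_add_right_eq_self, lintegral_const]
  refine ENNReal.mul_ne_top hi ?_
  rw [Measure.restrict_apply_univ]
  exact measure_ball_lt_top.ne

theorem rem_L2 {n : ℕ} {h τ : Cn n → ℂ} {w₀ : Cn n} {R : ℝ} (hR : 0 < R) (hτ : AnalyticOnNhd ℂ τ (ball w₀ R))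
    (hne : ∃ᶠ w in 𝓝 w₀, τ w ≠ 0) (hh : ∀ w ∈ ball w₀ R, τ w ≠ 0 → DifferentiableAt ℂ h w)
    (hi : ∫⁻ w in ball w₀ R ∩ {w | τ w ≠ 0}, ENNReal.ofReal (‖h w‖ ^ 2) ≠ ⊤) :
    ∃ H, AnalyticAt ℂ H w₀ ∧ ∀ᶠ w in 𝓝 w₀, τ w ≠ 0 → h w = H w := by
  classical
  obtain ⟨w₁, hw₁, hb₁⟩ := (hne.and_eventually (ball_mem_nhds w₀ (half_pos hR))).exists
  set e := w₁ - w₀ with he
  have hen : ‖e‖ < R / 2 := by rw [he, ← dist_eq_norm]; exact hb₁
  have hmem : ∀ w ∈ ball w₀ (R / 2), ∀ s : ℂ, ‖s‖ ≤ 1 → w + s • e ∈ ball w₀ R := by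
    intro w hw s hs
    rw [mem_ball, dist_eq_norm] at hw ⊢
    have h1 : w + s • e - w₀ = (w - w₀) + s • e := by abel
    have h2 : ‖s • e‖ ≤ ‖e‖ := by rw [norm_smul]; exact mul_le_of_le_one_left (norm_nonneg _) hs
    rw [h1]
    linarith [norm_add_le (w - w₀) (s • e)]
  have han : ∀ w ∈ ball w₀ (R / 2), AnalyticOnNhd ℂ (fun s : ℂ => τ (w + s • e)) (closedBall 0 1) :=
    fun w hw s hs => AnalyticAt.comp (f := fun s : ℂ => w + s • e) (hτ _ (hmem w hw s (mem_closedBall_zero_iff.1 hs)))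
      (by fun_prop)
  have h1 : ∀ᶠ s in 𝓝[≠] (0 : ℂ), τ (w₀ + s • e) ≠ 0 := by
    have h0 := han w₀ (mem_ball_self (half_pos hR))
    refine (h0 0 (mem_closedBall_self zero_le_one)).eventually_eq_zero_or_eventually_ne_zero.resolve_left
      fun h1 => hw₁ ?_
    have := h0.eqOn_zero_of_preconnected_of_eventuallyEq_zero (convex_closedBall 0 1).isPreconnected
      (mem_closedBall_self zero_le_one) h1 (x := 1) (by simp)
    simpa [he] using this
  obtain ⟨r₁, hr₁, hb⟩ := Metric.eventually_nhds_iff_ball.1 (eventually_nhdsWithin_iff.1 h1)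
  set r := min (r₁ / 2) 1 with hr
  have r0 : 0 < r := lt_min (half_pos hr₁) one_pos
  have r1 : r ≤ 1 := min_le_right _ _
  have r2 : r < r₁ := (min_le_left _ _).trans_lt (half_lt_self hr₁)
  have h2 : ∀ᶠ w in 𝓝 w₀, ∀ s ∈ sphere (0 : ℂ) r, τ (w + s • e) ≠ 0 := by
    refine (isCompact_sphere (0 : ℂ) r).eventually_forall_of_forall_eventually fun s hs => ?_
    have hs' : ‖s‖ = r := mem_sphere_zero_iff_norm.1 hs
    have h3 : τ (w₀ + s • e) ≠ 0 := hb s (mem_ball_zero_iff.2 (hs' ▸ r2)) fun h0 => by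
      rw [mem_singleton_iff.1 h0, norm_zero] at hs'
      exact r0.ne hs'
    have h4 : ContinuousAt (fun z : Cn n × ℂ => τ (z.1 + z.2 • e)) (w₀, s) :=
      ContinuousAt.comp (f := fun z : Cn n × ℂ => z.1 + z.2 • e)
        (hτ _ (hmem w₀ (mem_ball_self (half_pos hR)) s (hs' ▸ r1))).continuousAt (by fun_prop)
    exact h4.eventually_ne h3
  obtain ⟨ε, hε, hε'⟩ := Metric.eventually_nhds_iff_ball.1 (h2.and (ball_mem_nhds w₀ (half_pos hR)))
  have hVo : IsOpen (ball w₀ R ∩ {w | τ w ≠ 0}) :=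
    hτ.continuousOn.isOpen_inter_preimage isOpen_ball (isOpen_compl_singleton (x := (0 : ℂ)))
  have hhd : DifferentiableOn ℂ h (ball w₀ R ∩ {w | τ w ≠ 0}) := fun w hw => (hh w hw.1 hw.2).differentiableWithinAt
  set ψ : ℂ × Cn n → Cn n := fun z => z.2 + ((r : ℂ) * Complex.exp (2 * Real.pi * z.1 * Complex.I)) • e with hψ
  have hψd : Differentiable ℂ ψ := by rw [hψ]; fun_prop
  have hψe : ∀ (t : ℝ) (w : Cn n), ψ ((t : ℂ), w) = w + circleMap 0 r (2 * Real.pi * t) • e := fun t w => by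
    simp [hψ, circleMap]
  have hH := R266.int_diff (k := fun z => h (ψ z)) (hVo.preimage hψd.continuous)
    (hhd.comp hψd.differentiableOn fun _ hz => hz) (U := ball w₀ ε) isOpen_ball fun w hw t _ => by
      have hc := circleMap_mem_sphere 0 r0.le (2 * Real.pi * t)
      rw [mem_preimage, hψe]
      exact ⟨hmem w (hε' w hw).2 _ ((mem_sphere_zero_iff_norm.1 hc).le.trans r1), (hε' w hw).1 _ hc⟩
  set H : Cn n → ℂ := fun w => ∫ t in (0 : ℝ)..1, h (ψ ((t : ℂ), w)) with hHd
  have hHe : ∀ w, H w = Real.circleAverage (fun s : ℂ => h (w + s • e)) 0 r := fun w => by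
    have hπ : 2 * Real.pi ≠ 0 := by positivity
    rw [Real.circleAverage_def, hHd]
    simp only [hψe]
    rw [intervalIntegral.integral_comp_mul_left (fun θ => h (w + circleMap 0 r θ • e)) hπ, mul_zero, mul_one]
  refine ⟨H, R266.osgood isOpen_ball hH w₀ (mem_ball_self hε), ?_⟩
  have hsub : ball w₀ ε ⊆ ball w₀ R := fun w hw => ball_subset_ball (half_le_self hR.le) (hε' w hw).2
  have hO : IsOpen (ball w₀ ε ∩ (ball w₀ R ∩ {w | τ w ≠ 0})) := isOpen_ball.inter hVo
  have hΦ : Measurable ((ball w₀ R ∩ {w | τ w ≠ 0}).indicator fun w => ENNReal.ofReal (‖h w‖ ^ 2)) := by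
    rw [← Set.piecewise_eq_indicator]
    exact ContinuousOn.measurable_piecewise
      (ENNReal.continuous_ofReal.comp_continuousOn (hhd.continuousOn.norm.pow 2)) continuousOn_const hVo.measurableSet
  have hae := rem_slice hΦ (by rwa [lintegral_indicator hVo.measurableSet]) e r
  have heq := Measure.eqOn_open_of_ae_eq (μ := volume) (f := h) (g := H) ?_ hO
    (hhd.continuousOn.mono inter_subset_right) (hH.continuousOn.mono inter_subset_left)
  · filter_upwards [ball_mem_nhds w₀ hε] with w hw h0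
    exact heq ⟨hw, hsub hw, h0⟩
  · filter_upwards [ae_restrict_mem hO.measurableSet, ae_restrict_of_ae hae] with w hw hf
    have hm1 : ∀ s ∈ closedBall (0 : ℂ) r, w + s • e ∈ ball w₀ R := fun s hs =>
      hmem w (hε' w hw.1).2 s ((mem_closedBall_zero_iff.1 hs).trans r1)
    have han1 := (han w (hε' w hw.1).2).mono (closedBall_subset_closedBall r1)
    have key := rem_one (u := fun s : ℂ => h (w + s • e)) (τ := fun s : ℂ => τ (w + s • e)) r0 han1 (hε' w hw.1).1
      (by simpa using hw.2.2)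
      (fun s hs h0 => DifferentiableAt.comp (f := fun s : ℂ => w + s • e) s (hh _ (hm1 s hs) h0) (by fun_prop))
      (ne_top_of_le_ne_top hf.ne (by
        have hso : IsOpen (ball (0 : ℂ) r ∩ {s | τ (w + s • e) ≠ 0}) :=
          (han1.continuousOn.mono ball_subset_closedBall).isOpen_inter_preimage isOpen_ball
            (isOpen_compl_singleton (x := (0 : ℂ)))
        refine le_trans (setLIntegral_mono' hso.measurableSet fun s hs => ?_) (lintegral_mono_set inter_subset_left)
        rw [indicator_of_mem (show w + s • e ∈ ball w₀ R ∩ {w | τ w ≠ 0} from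
          ⟨hm1 s (ball_subset_closedBall hs.1), hs.2⟩)]))
    rw [hHe, key]
    simp

end Crest.Agent.R269
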