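import Crest.Agent.R269.E.Dom
import Crest.Agent.R269.E.Rem

/-!
# Row 269, block E: the section on the cone over `OmS`, local extension, gluing (helper31)
-/

set_option autoImplicit false
set_option linter.unusedSectionVars false
set_option linter.unusedVariables false

noncomputable section

namespace Crest.Agent.R269

open Set Metric Filter Topology MeasureTheory Matrix
open Crest.AlgGeometry.ProjEmb
open scoped InnerProductSpace ContDiff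

theorem ext_ell_smul {N n : ℕ} (Λ : Matrix (Fin (n + 1)) (Fin (N + 1)) ℂ) (t : ℂ) (y : Cn (N + 1)) :
    ell Λ (t • y) = t * ell Λ y := by
  simp [ell, mulVec_smul]

theorem ext_ell_poly {N n : ℕ} (Λ : Matrix (Fin (n + 1)) (Fin (N + 1)) ℂ) :
    ∃ L : MvPolynomial (Fin (N + 1)) ℂ, ∀ y, ev L y = ell Λ y :=
  ⟨∑ i, MvPolynomial.C (Λ 0 i) * MvPolynomial.X i, fun y => by simp [ev, ell, mulVec, dotProduct]⟩

theorem ext_analyticAt_ell {N n : ℕ} (Λ : Matrix (Fin (n + 1)) (Fin (N + 1)) ℂ) (y : Cn (N + 1)) :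
    AnalyticAt ℂ (ell Λ) y := by
  obtain ⟨L, hL⟩ := ext_ell_poly Λ
  rw [← funext hL]
  exact analyticAt_ev L y

theorem ext_zpow {z : ℂ} (hz : z ≠ 0) (k : ℤ) : ‖z ^ k‖ ^ 2 = Real.exp (k * Real.log (‖z‖ ^ 2)) := by
  have h : 0 < ‖z‖ ^ 2 := pow_pos (norm_pos_iff.2 hz) 2
  rw [← Real.log_zpow, Real.exp_log (zpow_pos h k), norm_zpow, ← zpow_natCast, ← zpow_natCast, ← _root_.zpow_mul,
    ← _root_.zpow_mul,
    mul_comm]

namespace Geo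

variable {N n : ℕ} (X : Geo N n) (Λ : Matrix (Fin (n + 1)) (Fin (N + 1)) ℂ)

theorem HolY.cont {X : Geo N n} {h : Cn (N + 1) → ℂ} (hh : X.HolY h) {y : Cn (N + 1)} (hy : y ∈ X.Y) :
    ContinuousWithinAt h X.Y y := by
  obtain ⟨g, hg, e⟩ := hh y hy
  exact hg.continuousAt.continuousWithinAt.congr_of_eventuallyEq e (e.self_of_nhdsWithin hy)

theorem ext_glue {Ω : Set (Cn (N + 1))} (hd : ∀ y ∈ X.Y, ∃ᶠ x in 𝓝[X.Y] y, x ∈ Ω) {s : Cn (N + 1) → ℂ}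
    (hs : ∀ y ∈ X.Y, ∃ G, AnalyticAt ℂ G y ∧ ∀ᶠ x in 𝓝[X.Y] y, x ∈ Ω → s x = G x) :
    ∃ S, X.HolY S ∧ (∀ y ∈ X.Y, y ∈ Ω → S y = s y) ∧ ∀ y, y ∉ X.Y → S y = 0 := by
  classical
  choose! G hG hG' using hs
  refine ⟨fun y => if y ∈ X.Y then G y y else 0, fun y hy => ⟨G y, hG y hy, ?_⟩, fun y hy hΩ => ?_,
    fun y hy => if_neg hy⟩
  · filter_upwards [self_mem_nhdsWithin, mem_nhdsWithin_of_mem_nhds (hG y hy).eventually_analyticAt,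
      eventually_eventually_nhdsWithin.2 (hG' y hy)] with x hx h1 h2
    rw [if_pos hx]
    refine tendsto_nhds_unique_of_frequently_eq ((hG x hx).continuousAt.continuousWithinAt (s := X.Y))
      (AnalyticAt.continuousAt h1).continuousWithinAt ?_
    exact ((hd x hx).and_eventually (h2.and (hG' x hx))).mono fun z hz => (hz.2.2 hz.1).symm.trans (hz.2.1 hz.1)
  · simp only [if_pos hy]
    exact ((hG' y hy).self_of_nhdsWithin hy hΩ).symm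

/-- the cone over `OmS` -/
def Om : Set (Cn (N + 1)) := {y | y ∈ X.Y ∧ ell Λ y ≠ 0 ∧ ∃ f, X.dl f Λ y ≠ 0}

variable {X Λ}

theorem Om_smul {y : Cn (N + 1)} (hy : y ∈ X.Om Λ) {t : ℂ} (ht : t ≠ 0) : t • y ∈ X.Om Λ := by
  obtain ⟨h1, h2, f, h3⟩ := hy
  exact ⟨X.smul_mem_Y h1 ht, by rw [ext_ell_smul]; exact mul_ne_zero ht h2, f, by
    rw [X.dl_smul]; exact mul_ne_zero (pow_ne_zero _ ht) h3⟩

theorem Om_mem {y : Cn (N + 1)} (hy : y ∈ X.Om Λ) : (ell Λ y)⁻¹ • y ∈ X.OmS Λ := by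
  obtain ⟨h1, -, h3⟩ := Om_smul hy (inv_ne_zero hy.2.1)
  exact ⟨h1, by rw [ext_ell_smul, inv_mul_cancel₀ hy.2.1], h3⟩

theorem OmS_sub {y : Cn (N + 1)} (hy : y ∈ X.OmS Λ) : y ∈ X.Om Λ :=
  ⟨hy.1, by rw [hy.2.1]; exact one_ne_zero, hy.2.2⟩

theorem dense_Om (y₁ : X.OmS Λ) : ∀ y ∈ X.Y, ∃ᶠ x in 𝓝[X.Y] y, x ∈ X.Om Λ := by
  intro y hy
  obtain ⟨h1, h2, f, h3⟩ := y₁.2
  obtain ⟨L, hL⟩ := ext_ell_poly Λ
  obtain ⟨P, -, hP⟩ := X.exists_dl_poly f Λ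
  have hm : ∀ x, ev (L * P) x = ell Λ x * X.dl f Λ x := fun x => by rw [← hL, ← hP]; simp [ev]
  have hn : L * P ∉ X.I := fun h => by
    have := X.zero y₁ h1.1 h1.2 _ h
    rw [hm, h2, one_mul] at this
    exact h3 this
  refine ((X.irred hn hy).and_eventually self_mem_nhdsWithin).mono fun x hx => ?_
  rw [hm] at hx
  exact ⟨hx.2, left_ne_zero_of_mul hx.1, f, right_ne_zero_of_mul hx.1⟩

/-- the `0`-homogeneous extension -/
def ext0 (F : X.OmS Λ → ℂ) (y : Cn (N + 1)) : ℂ := Function.extend Subtype.val F 0 ((ell Λ y)⁻¹ • y)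

theorem ext0_eq (F : X.OmS Λ → ℂ) {y : Cn (N + 1)} {z : X.OmS Λ} (h : z.1 = (ell Λ y)⁻¹ • y) : ext0 F y = F z := by
  rw [ext0, ← h, Subtype.val_injective.extend_apply]

theorem ext0_smul (F : X.OmS Λ → ℂ) (y : Cn (N + 1)) {t : ℂ} (ht : t ≠ 0) : ext0 F (t • y) = ext0 F y := by
  rw [ext0, ext0, ext_ell_smul, smul_smul, mul_inv, mul_comm t⁻¹, mul_assoc, inv_mul_cancel₀ ht, mul_one]

/-- the section on the cone over `OmS` -/
def sz (F : X.OmS Λ → ℂ) (m : ℕ) (j : ℤ) (f : X.Fi) (y : Cn (N + 1)) : ℂ :=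
  ell Λ y ^ (j - m * (n + 1)) * ext0 F y * X.dl f Λ y ^ m

theorem sz_smul (F : X.OmS Λ → ℂ) (m : ℕ) (j : ℤ) (f : X.Fi) (y : Cn (N + 1)) {t : ℂ} (ht : t ≠ 0) :
    sz F m j f (t • y) = t ^ (j + m * X.dK) * sz F m j f y := by
  have h : j + m * X.dK = (j - m * (n + 1)) + ((X.c * (X.e - 1) * m : ℕ) : ℤ) := by
    rw [dK]; push_cast [X.epos]; ring
  rw [sz, sz, ext0_smul F y ht, ext_ell_smul, X.dl_smul, h, zpow_add₀ ht, zpow_natCast, mul_zpow, mul_pow, pow_mul t _ m]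
  ring

theorem sz_compat (F : X.OmS Λ → ℂ) (m : ℕ) (j : ℤ) (f f' : X.Fi) (Λ') {y : Cn (N + 1)} (hy : y ∈ X.Y) :
    X.dl f' Λ' y ^ m * sz F m j f y = X.dl f Λ' y ^ m * sz F m j f' y := by
  have h := congrArg (· ^ m) (X.dl_mul_dl hy f f' Λ Λ')
  simp only [mul_pow] at h
  simp only [sz]
  linear_combination (ell Λ y ^ (j - m * (n + 1)) * ext0 F y) * h

theorem ext0_hol {F : X.OmS Λ → ℂ} (hF : (X.OmD Λ).HolOn F univ) {y : Cn (N + 1)} (hy : y ∈ X.Om Λ) :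
    ∃ G, AnalyticAt ℂ G y ∧ ext0 F =ᶠ[𝓝[X.Y] y] G := by
  obtain ⟨h1, h2, f, h3⟩ := hy
  obtain ⟨C, hC, hB, hσ⟩ := X.exists_chart h1 h2 h3
  obtain ⟨e, he, het, hes⟩ := X.isCh_of_chart Λ C hC ⟨_, hB⟩
  have hd := hF e he
  rw [preimage_univ, inter_univ, het] at hd
  refine ⟨(F ∘ e.symm) ∘ zeta Λ, (R266.osgood C.isOpen hd _ hB).comp (analyticAt_zeta Λ h2), ?_⟩
  have h4 := C.eventually hB h2
  rw [hσ, smul_smul, mul_inv_cancel₀ h2, one_smul, hC] at h4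
  filter_upwards [h4] with x hx
  refine ext0_eq F ?_
  rw [hes _ hx.2.1]
  conv_rhs => rw [hx.2.2]
  rw [ext_ell_smul, ← hC, C.one _ (hC ▸ hx.2.1), mul_one, smul_smul, inv_mul_cancel₀ (hC ▸ hx.1), one_smul]

theorem sz_hol {F : X.OmS Λ → ℂ} (hF : (X.OmD Λ).HolOn F univ) (m : ℕ) (j : ℤ) (f : X.Fi) {y : Cn (N + 1)}
    (hy : y ∈ X.Om Λ) : ∃ G, AnalyticAt ℂ G y ∧ sz F m j f =ᶠ[𝓝[X.Y] y] G := by
  obtain ⟨G, hG, e⟩ := ext0_hol hF hy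
  refine ⟨fun x => ell Λ x ^ (j - m * (n + 1)) * G x * X.dl f Λ x ^ m,
    (((ext_analyticAt_ell Λ y).zpow hy.2.1).mul hG).mul ((X.analyticAt_dl f Λ y).pow m), ?_⟩
  filter_upwards [e] with x hx
  rw [sz, hx]

theorem Chart.tendsto_Y (C : X.Chart) {w : Cn n} (hw : w ∈ C.B) : Tendsto C.σ (𝓝 w) (𝓝[X.Y] (C.σ w)) :=
  tendsto_nhdsWithin_iff.2 ⟨(C.an w hw).continuousAt, (C.isOpen.eventually_mem hw).mono fun _ h => C.mem h⟩

theorem ext_dv_ne {y : Cn (N + 1)} (hy : y ∈ X.Y) {f : X.Fi} {Λ' : Matrix (Fin (n + 1)) (Fin (N + 1)) ℂ}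
    (h : X.dl f Λ' y ≠ 0) : X.dv f y ≠ 0 := by
  obtain ⟨C, -, hC⟩ := X.norm_dl_le Λ'
  intro h0
  have := hC f y hy
  rw [h0, norm_zero, mul_zero] at this
  exact h (norm_le_zero_iff.1 this)

theorem ext_pot {x : Cn (N + 1)} (hx : x ∈ X.Y) (hl : ell Λ x ≠ 0) {f : X.Fi} (hf : X.dl f Λ x ≠ 0) (a b : ℝ) :
    X.pot Λ a b ((ell Λ x)⁻¹ • x) = a * (Real.log (‖X.dv f x‖ ^ 2) - Real.log (‖X.dl f Λ x‖ ^ 2)) +
      b * (Real.log (‖x‖ ^ 2) - Real.log (‖ell Λ x‖ ^ 2)) := by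
  have ht := inv_ne_zero hl
  set t := (ell Λ x)⁻¹ with htd
  have hp := pow_ne_zero (X.c * (X.e - 1)) ht
  have hdv : X.dv f (t • x) = t ^ (X.c * (X.e - 1)) • X.dv f x := by
    ext β; simp [dv, X.dl_smul]
  rw [pot_eq (X.smul_mem_Y hx ht) (f := f) (by rw [X.dl_smul]; exact mul_ne_zero hp hf), hdv, X.dl_smul, norm_smul,
    norm_smul, norm_mul, mul_pow, mul_pow, mul_pow,
    Real.log_mul (pow_ne_zero _ (norm_ne_zero_iff.2 hp)) (pow_ne_zero _ (norm_ne_zero_iff.2 (ext_dv_ne hx hf))),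
    Real.log_mul (pow_ne_zero _ (norm_ne_zero_iff.2 hp)) (pow_ne_zero _ (norm_ne_zero_iff.2 hf)),
    Real.log_mul (pow_ne_zero _ (norm_ne_zero_iff.2 ht)) (pow_ne_zero _ (norm_ne_zero_iff.2 hx.1)), htd, norm_inv,
    inv_pow ‖_‖, Real.log_inv]
  ring

/-- the pointwise comparison with the integrand of `L2Bd` -/
theorem ext_point (F : X.OmS Λ → ℂ) (m : ℕ) (j : ℤ) (C : X.Chart) {w : Cn n} (hw : w ∈ C.B) {f : X.Fi}
    (hl : ell Λ (C.σ w) ≠ 0) (hδ : X.dl f Λ (C.σ w) ≠ 0) (hμ : X.dl f C.Λ (C.σ w) ≠ 0) {φ c K : ℝ}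
    (hφ : φ ≤ X.pot Λ (m - 1) (j - (m - 1) * (n + 1)) ((ell Λ (C.σ w))⁻¹ • C.σ w) + c)
    (hK : c + (m - 1) * Real.log (‖X.dv f (C.σ w)‖ ^ 2) + (j - (m - 1) * (n + 1)) * Real.log (‖C.σ w‖ ^ 2) +
      Real.log (‖X.dl f C.Λ (C.σ w)‖ ^ 2) ≤ K) :
    ‖sz F m j f (C.σ w)‖ ^ 2 ≤ Real.exp K * (‖ext0 F (C.σ w)‖ ^ 2 * Real.exp (-φ) *
      ‖LinearMap.det (fderiv ℂ (fun x => zeta Λ (C.σ x)) w : Cn n →ₗ[ℂ] Cn n)‖ ^ 2) := by
  obtain ⟨μ, -, hμ'⟩ := X.exists_mu (C.mem hw) (C.isFrame hw)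
  have h1 := hμ' f C.Λ
  rw [C.det_mul_U hw, mul_one] at h1
  have h2 := hμ' f Λ
  rw [← h1] at h2
  have h3 : (Λ * C.U w).det / ell Λ (C.σ w) ^ (n + 1) =
      X.dl f Λ (C.σ w) ^ (1 : ℤ) * X.dl f C.Λ (C.σ w) ^ (-1 : ℤ) * ell Λ (C.σ w) ^ (-((n + 1 : ℕ) : ℤ)) := by
    rw [h2, _root_.zpow_neg, _root_.zpow_neg, zpow_natCast, zpow_one, zpow_one]
    field_simp
  rw [ext_pot (C.mem hw) hl hδ] at hφ
  rw [C.det_fderiv_zeta hw Λ hl, h3, sz, norm_mul, norm_mul, norm_mul, norm_mul, mul_pow, mul_pow, mul_pow, mul_pow,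
    ← zpow_natCast (X.dl f Λ (C.σ w)) m, ext_zpow hl, ext_zpow hl, ext_zpow hδ, ext_zpow hδ, ext_zpow hμ]
  have h4 : ∀ a b c d e f g u : ℝ, a + b ≤ c + d + (e + f + g) → 0 ≤ u →
      Real.exp a * u * Real.exp b ≤ Real.exp c * (u * Real.exp d * (Real.exp e * Real.exp f * Real.exp g)) := by
    intro a b c d e f g u h hu
    have := Real.exp_le_exp.2 h
    simp only [Real.exp_add] at this
    nlinarith
  refine h4 _ _ _ _ _ _ _ _ ?_ (sq_nonneg _)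
  push_cast
  nlinarith

/-- local extension in a chart -/
theorem ext_chart (y₁ : X.OmS Λ) {m : ℕ} (j : ℤ) {F g : X.OmS Λ → ℂ} (hF : (X.OmD Λ).HolOn F univ)
    (hg : HasCompactSupport g) {φ : X.OmS Λ → ℝ} {c c' : ℝ}
    (hφ : ∀ y, φ y ≤ X.pot Λ (m - 1) (j - (m - 1) * (n + 1)) y.1 + c) (hL : (X.OmD Λ).L2Bd (F - g) φ c')
    (C : X.Chart) {w₀ : Cn n} (hw : w₀ ∈ C.B) (hn : C.σ w₀ ∉ X.Om Λ) {f : X.Fi} (hf : X.dl f C.Λ (C.σ w₀) ≠ 0) :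
    ∃ H, AnalyticAt ℂ H w₀ ∧ ∀ᶠ w in 𝓝 w₀, C.σ w ∈ X.Om Λ → sz F m j f (C.σ w) = H w := by
  classical
  have hσ := (C.an w₀ hw).continuousAt
  set τ : Cn n → ℂ := fun w => ell Λ (C.σ w) * X.dl f Λ (C.σ w) with hτ
  have hμ : ∀ᶠ w in 𝓝 w₀, X.dl f C.Λ (C.σ w) ≠ 0 :=
    ((X.analyticAt_dl f C.Λ _).continuousAt.comp hσ).eventually_ne hf
  have hiff : ∀ w ∈ C.B, X.dl f C.Λ (C.σ w) ≠ 0 → C.σ w ∈ X.Om Λ → τ w ≠ 0 := by
    rintro w hB h1 ⟨h2, h3, f', h4⟩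
    refine mul_ne_zero h3 fun h5 => ?_
    have := X.dl_mul_dl h2 f' f Λ C.Λ
    rw [h5, zero_mul] at this
    exact mul_ne_zero h4 h1 this
  have hOm : ∀ w ∈ C.B, τ w ≠ 0 → C.σ w ∈ X.Om Λ := fun w hB h =>
    ⟨C.mem hB, left_ne_zero_of_mul h, f, right_ne_zero_of_mul h⟩
  have hsupp : ∀ᶠ w in 𝓝 w₀, ∀ y ∈ tsupport g, ell Λ (C.σ w) • y.1 ≠ C.σ w := by
    refine IsCompact.eventually_forall_of_forall_eventually hg fun y _ => ?_
    have h1 : ContinuousAt (fun z : Cn n × X.OmS Λ => C.σ z.1) (w₀, y) :=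
      ContinuousAt.comp (f := Prod.fst) hσ continuousAt_fst
    have h2 : ContinuousAt (fun z : Cn n × X.OmS Λ => ell Λ (C.σ z.1) • z.2.1 - C.σ z.1) (w₀, y) :=
      (((ext_analyticAt_ell Λ _).continuousAt.comp h1).smul
        (continuous_subtype_val.comp continuous_snd).continuousAt).sub h1
    refine (h2.eventually_ne (show _ ≠ (0 : Cn (N + 1)) from fun h3 => hn ?_)).mono fun z hz => sub_ne_zero.1 hz
    have h4 : ell Λ (C.σ w₀) • y.1 = C.σ w₀ := sub_eq_zero.1 h3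
    rw [← h4]
    refine Om_smul (OmS_sub y.2) fun h5 => (C.mem hw).1 ?_
    rw [← h4, h5, zero_smul]
  set θ : Cn n → ℝ := fun w => c + (m - 1) * Real.log (‖X.dv f (C.σ w)‖ ^ 2) +
    (j - (m - 1) * (n + 1)) * Real.log (‖C.σ w‖ ^ 2) + Real.log (‖X.dl f C.Λ (C.σ w)‖ ^ 2) with hθ
  have hθc : ContinuousAt θ w₀ :=
    ((continuousAt_const.add (continuousAt_const.mul
      ((((X.analyticAt_dv f _).continuousAt.comp hσ).norm.pow 2).log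
        (pow_ne_zero _ (norm_ne_zero_iff.2 (ext_dv_ne (C.mem hw) hf)))))).add
      (continuousAt_const.mul ((hσ.norm.pow 2).log (pow_ne_zero _ (norm_ne_zero_iff.2 (C.mem hw).1))))).add
      ((((X.analyticAt_dl f C.Λ _).continuousAt.comp hσ).norm.pow 2).log (pow_ne_zero _ (norm_ne_zero_iff.2 hf)))
  obtain ⟨R, hR, hb⟩ := Metric.eventually_nhds_iff_ball.1 (((C.isOpen.eventually_mem hw).and hμ).and
    (hsupp.and (hθc.eventually (gt_mem_nhds (lt_add_one (θ w₀))))))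
  have hτa : AnalyticOnNhd ℂ τ (ball w₀ R) := fun w h =>
    ((ext_analyticAt_ell Λ _).comp (C.an w (hb w h).1.1)).mul ((X.analyticAt_dl f Λ _).comp (C.an w (hb w h).1.1))
  have hne : ∃ᶠ w in 𝓝 w₀, τ w ≠ 0 := by
    have h1 := C.eventually hw one_ne_zero
    rw [one_smul] at h1
    have h2 : Tendsto (zeta C.Λ) (𝓝[X.Y] (C.σ w₀)) (𝓝 w₀) := by
      have := (analyticAt_zeta C.Λ (y := C.σ w₀) (by rw [C.one _ hw]; exact one_ne_zero)).continuousAt.tendsto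
      rw [C.inv _ hw] at this
      exact this.mono_left nhdsWithin_le_nhds
    refine h2.frequently (((dense_Om y₁ _ (C.mem hw)).and_eventually (h1.and (h2.eventually hμ))).mono fun x hx => ?_)
    refine hiff _ hx.2.1.2.1 hx.2.2 ?_
    have h3 := Om_smul hx.1 (inv_ne_zero hx.2.1.1)
    conv at h3 => rw [hx.2.1.2.2]
    rwa [ext_ell_smul, C.one _ hx.2.1.2.1, mul_one, smul_smul, inv_mul_cancel₀ hx.2.1.1, one_smul] at h3
  set V := ball w₀ R ∩ {w | τ w ≠ 0} with hV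
  have hVo : IsOpen V := hτa.continuousOn.isOpen_inter_preimage isOpen_ball (isOpen_compl_singleton (x := (0 : ℂ)))
  have hVB : ∀ w ∈ V, w ∈ C.B := fun w h => (hb w h.1).1.1
  have hVO : ∀ w ∈ V, C.σ w ∈ X.Om Λ := fun w h => hOm w (hVB w h) h.2
  set ι : Cn n → X.OmS Λ := fun w => if h : C.σ w ∈ X.Om Λ then ⟨_, Om_mem h⟩ else y₁ with hι
  have hιv : ∀ w ∈ V, (ι w).1 = (ell Λ (C.σ w))⁻¹ • C.σ w := fun w h => by simp only [hι, dif_pos (hVO w h)]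
  have hπ : ∀ (Λ' : Matrix (Fin (n + 1)) (Fin (N + 1)) ℂ), ∀ w ∈ V, zeta Λ' (ι w).1 = zeta Λ' (C.σ w) := fun Λ' w h => by
    rw [hιv w h, zeta_smul Λ' _ (inv_ne_zero (hVO w h).2.1)]
  have hI := hL V ι hVo (by
      refine IsInducing.subtypeVal.continuousOn_iff.2 (ContinuousOn.congr (fun w h => ?_) hιv)
      have h1 := (C.an w (hVB w h)).continuousAt
      exact ((((ext_analyticAt_ell Λ _).continuousAt.comp h1).inv₀ (hVO w h).2.1).smul h1).continuousWithinAt)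
    (fun w h w' h' e => by rw [← C.inv _ (hVB w h), ← C.inv _ (hVB w' h'), ← hπ _ w h, ← hπ _ w' h', e])
    (DifferentiableOn.congr (fun w h => (((analyticAt_zeta Λ (hVO w h).2.1).comp
      (C.an w (hVB w h))).differentiableAt.differentiableWithinAt)) (hπ Λ))
  obtain ⟨H, hH, hH'⟩ := rem_L2 (h := fun w => sz F m j f (C.σ w)) hR hτa hne (fun w h h0 => by
      obtain ⟨G, hG, e⟩ := sz_hol hF m j f (hVO w ⟨h, h0⟩)
      exact (hG.comp (C.an w (hb w h).1.1)).differentiableAt.congr_of_eventuallyEq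
        ((C.tendsto_Y (hb w h).1.1).eventually e))
    (ne_top_of_le_ne_top (ENNReal.mul_ne_top (a := ENNReal.ofReal (Real.exp (θ w₀ + 1))) ENNReal.ofReal_ne_top
      (ne_top_of_le_ne_top ENNReal.ofReal_ne_top hI)) (by
      rw [← lintegral_const_mul' _ _ ENNReal.ofReal_ne_top]
      refine setLIntegral_mono' hVo.measurableSet fun w h => ?_
      rw [← ENNReal.ofReal_mul (Real.exp_pos _).le]
      refine ENNReal.ofReal_le_ofReal ?_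
      have h1 : g (ι w) = 0 := image_eq_zero_of_notMem_tsupport fun h1 => (hb w h.1).2.1 _ h1 (by
        rw [hιv w h, smul_smul, mul_inv_cancel₀ (hVO w h).2.1, one_smul])
      have h2 : fderiv ℂ ((X.OmD Λ).π ∘ ι) w = fderiv ℂ (fun x => zeta Λ (C.σ x)) w :=
        Filter.EventuallyEq.fderiv_eq ((hVo.eventually_mem h).mono (hπ Λ))
      rw [h2, Pi.sub_apply, h1, sub_zero, ← ext0_eq F (hιv w h)]
      exact ext_point F m j C (hVB w h) (hVO w h).2.1 (right_ne_zero_of_mul h.2) (hb w h.1).1.2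
        (hιv w h ▸ hφ (ι w)) (hb w h.1).2.2.le))
  refine ⟨H, hH, ?_⟩
  filter_upwards [hH', ball_mem_nhds w₀ hR] with w h1 h2 h3
  exact h1 (hiff w (hb w h2).1.1 (hb w h2).1.2 h3)

/-- local extension on the cone -/
theorem ext_loc (y₁ : X.OmS Λ) {m : ℕ} (j : ℤ) {F g : X.OmS Λ → ℂ} (hF : (X.OmD Λ).HolOn F univ)
    (hg : HasCompactSupport g) {φ : X.OmS Λ → ℝ} {c c' : ℝ}
    (hφ : ∀ y, φ y ≤ X.pot Λ (m - 1) (j - (m - 1) * (n + 1)) y.1 + c) (hL : (X.OmD Λ).L2Bd (F - g) φ c')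
    (f : X.Fi) {y : Cn (N + 1)} (hy : y ∈ X.Y) :
    ∃ G, AnalyticAt ℂ G y ∧ ∀ᶠ x in 𝓝[X.Y] y, x ∈ X.Om Λ → sz F m j f x = G x := by
  by_cases hO : y ∈ X.Om Λ
  · obtain ⟨G, hG, e⟩ := sz_hol hF m j f hO
    exact ⟨G, hG, e.mono fun x hx _ => hx⟩
  obtain ⟨C, w₀, t, hw, ht, rfl⟩ := X.exists_chart_at hy
  obtain ⟨f', hf'⟩ := C.exists_dl hw
  obtain ⟨H, hH, hH'⟩ := ext_chart y₁ j hF hg hφ hL C hw (fun h => hO (Om_smul h ht)) hf'
  have hl : ell C.Λ (t • C.σ w₀) ≠ 0 := by rwa [ext_ell_smul, C.one _ hw, mul_one]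
  have hz : zeta C.Λ (t • C.σ w₀) = w₀ := by rw [zeta_smul _ _ ht, C.inv _ hw]
  have hza := analyticAt_zeta C.Λ hl
  have hK : AnalyticAt ℂ (fun w => (X.dl f C.Λ (C.σ w) / X.dl f' C.Λ (C.σ w)) ^ m * H w) w₀ :=
    ((((X.analyticAt_dl f C.Λ _).comp (C.an w₀ hw)).div ((X.analyticAt_dl f' C.Λ _).comp (C.an w₀ hw)) hf').pow m).mul hH
  refine ⟨fun x => ell C.Λ x ^ (j + m * X.dK) *
      (fun w => (X.dl f C.Λ (C.σ w) / X.dl f' C.Λ (C.σ w)) ^ m * H w) (zeta C.Λ x),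
    ((ext_analyticAt_ell C.Λ _).zpow hl).mul (hK.comp_of_eq hza hz), ?_⟩
  have h2 : Tendsto (zeta C.Λ) (𝓝[X.Y] (t • C.σ w₀)) (𝓝 w₀) := by
    have := hza.continuousAt.tendsto
    rw [hz] at this
    exact this.mono_left nhdsWithin_le_nhds
  have hμ : ∀ᶠ w in 𝓝 w₀, X.dl f' C.Λ (C.σ w) ≠ 0 :=
    ((X.analyticAt_dl f' C.Λ _).continuousAt.comp (C.an w₀ hw).continuousAt).eventually_ne hf'
  filter_upwards [C.eventually hw ht, h2.eventually hH', h2.eventually hμ] with x h3 h4 h5 h6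
  have h7 : C.σ (zeta C.Λ x) ∈ X.Om Λ := by
    have h8 := Om_smul h6 (inv_ne_zero h3.1)
    conv at h8 => rw [h3.2.2]
    rwa [ext_ell_smul, C.one _ h3.2.1, mul_one, smul_smul, inv_mul_cancel₀ h3.1, one_smul] at h8
  conv_lhs => rw [h3.2.2]
  rw [sz_smul F m j f _ h3.1, ← h4 h7, div_pow, div_mul_eq_mul_div, ← sz_compat F m j f f' C.Λ h7.1,
    mul_div_cancel_left₀ _ (pow_ne_zero _ h5)]

end Geo

end Crest.Agent.R269
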